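import Vale.Agent.P253.H567.Fin
import Vale.Agent.P253.H595.Semi
import Vale.Agent.P253.S445.Nf9

open scoped Manifold ContDiff Bundle
open Bundle Vale.Agent.P253.Mfd Vale.Agent.P253.CStar Vale.Agent.P253.R2 Vale.Agent.P253

namespace Vale.Agent.Results.P253.ContractingSemigroup

/-- Let `M` be a complete connected noncompact Kähler manifold of nonnegative bisectional
curvature. (1) Every continuous one-parameter semigroup `ρ t`, `t ≥ 0`, of holomorphic self-maps of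
`M` (not assumed injective or surjective) extends to a unique holomorphic action of `ℂ`; in
particular all `ρ t` are biholomorphic. (2) If `p` is a globally asymptotically stable point of such
a semigroup (`ρ t x → p` as `t → ∞` for all `x`, and for each neighbourhood `W` of `p` there is a
neighbourhood `U` of `p` with `ρ t U ⊆ W` for all large `t`; there is no condition on the
differentials), there is a biholomorphism from `M` to `T_p M = ℂ^n` with `p ↦ 0` and differential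
`id` at `p`. Moreover, the semigroup is linearized by such a biholomorphism in each of the following
three cases: (a) `ρ t x → p` as `t → ∞` for all `x`, and for one `T > 0` the differential of `ρ T`
at `p` satisfies `a |v| ≤ |d(ρ T) v| ≤ b |v|`, `b < 1`, `b² < a`; (b) `p` is a fixed point with
differentials `diag (exp (c m_j t))` (`c ≠ 0` a complex number: contracting, expanding, rotating or
spiralling; positive integers `m_j` with `m_i < 2 m_j`), and the curvature is positive at `p`;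
(c) `p` is a fixed point as in (b), and some holomorphic map from `M` to `ℂ^n` is nondegenerate at
`p` (in (b), (c) nothing is assumed on the global behaviour). (3) So `M` is biholomorphic to `ℂ^n`
if and only if it has a semigroup with a globally asymptotically stable point; also if and only if
it has a semigroup and a point as in (2c); if the curvature is positive, if and only if it has a
semigroup with a fixed point as in (2b).
(4) Suppose that `M` is biholomorphic to a domain `Ω` of `ℂ^n` (`e` is a global holomorphic chart,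
`Ω` its target). If `Ω` is mapped into itself by the positive real times of a holomorphic action of
`ℂ` on `ℂ^n`, it is invariant under all complex times; if it is mapped into itself by the
translations `z ↦ z + t v`, `t ≥ 0`, for all `v` in a set which spans `ℂ^n`, or if it contains `0`
and is mapped into itself by `diag (exp (- m_j t))`, `t ≥ 0`, for some real `m_j > 0`, then
`Ω = ℂ^n`; in particular starlike domains are `ℂ^n`. -/
theorem result {E : Type*} [NormedAddCommGroup E] [NormedSpace ℂ E] [FiniteDimensional ℂ E]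
    {M : Type*} [MetricSpace M] [ChartedSpace E M]
    [IsManifold 𝓘(ℂ, E) 1 M] [IsManifold 𝓘(ℝ, E) ∞ M]
    [RiemannianBundle (fun x : M => TangentSpace 𝓘(ℝ, E) x)]
    [IsContMDiffRiemannianBundle 𝓘(ℝ, E) ∞ E (fun x : M => TangentSpace 𝓘(ℝ, E) x)]
    [IsRiemannianManifold 𝓘(ℝ, E) M]
    [CompleteSpace M] [NoncompactSpace M] [ConnectedSpace M] (hK : IsKahler E M)
    (hnn : ∀ x : M, NonnegBisectionalAt E x) :
    (∀ ρ : ℝ → M → M, H567.IsHolSemigroup E ρ →
      (∃! ψ : ℂ → M → M, IsHolCFlow E ψ ∧ ∀ t : ℝ, 0 ≤ t → ∀ x : M, ψ t x = ρ t x) ∧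
        ∀ t : ℝ, 0 ≤ t → Function.Bijective (ρ t)) ∧
    (∀ ρ : ℝ → M → M, H567.IsHolSemigroup E ρ → ∀ p : M, S445.ConvergesTo ρ p →
      ∃ F : M ≃ₘ^1⟮𝓘(ℂ, E), 𝓘(ℂ, E)⟯ E, F p = 0 ∧
        ∀ v : E, (mfderiv 𝓘(ℂ, E) 𝓘(ℂ, E) F p : E → E) v = v) ∧
    (∀ ρ : ℝ → M → M, H567.IsHolSemigroup E ρ → ∀ p : M,
      (S445.IsContracting E ρ p ∨ (H595.IsRadialFixedPoint E ρ p ∧
        (PosBisectionalAt E p ∨ H565.HasGlobalCoordinatesAt E p))) →
      ∃ F : M ≃ₘ^1⟮𝓘(ℂ, E), 𝓘(ℂ, E)⟯ E, F p = 0 ∧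
        (∀ v : E, (mfderiv 𝓘(ℂ, E) 𝓘(ℂ, E) F p : E → E) v = v) ∧
        ∀ t : ℝ, 0 ≤ t → ∀ x : M, F (ρ t x) =
          (mfderiv 𝓘(ℂ, E) 𝓘(ℂ, E) (ρ t) p : E → E) (F x)) ∧
    (Nonempty (M ≃ₘ^1⟮𝓘(ℂ, E), 𝓘(ℂ, E)⟯ E) ↔
      ∃ ρ : ℝ → M → M, H567.IsHolSemigroup E ρ ∧ ∃ p : M, S445.ConvergesTo ρ p) ∧
    (Nonempty (M ≃ₘ^1⟮𝓘(ℂ, E), 𝓘(ℂ, E)⟯ E) ↔
      ∃ ρ : ℝ → M → M, H567.IsHolSemigroup E ρ ∧ ∃ p : M,
        H595.IsRadialFixedPoint E ρ p ∧ H565.HasGlobalCoordinatesAt E p) ∧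
    ((∀ x : M, PosBisectionalAt E x) →
      (Nonempty (M ≃ₘ^1⟮𝓘(ℂ, E), 𝓘(ℂ, E)⟯ E) ↔
        ∃ ρ : ℝ → M → M, H567.IsHolSemigroup E ρ ∧ ∃ p : M, H595.IsRadialFixedPoint E ρ p)) ∧
    ∀ e ∈ IsManifold.maximalAtlas 𝓘(ℂ, E) 1 M, e.source = Set.univ →
      (∀ σ : ℂ → E → E, IsHolCFlow E σ →
        (∀ t : ℝ, 0 ≤ t → ∀ z ∈ e.target, σ t z ∈ e.target) →
        ∀ ζ : ℂ, ∀ z ∈ e.target, σ ζ z ∈ e.target) ∧
      (∀ V : Set E, Submodule.span ℂ V = ⊤ →
        (∀ v ∈ V, ∀ t : ℝ, 0 ≤ t → ∀ z ∈ e.target, z + (t : ℂ) • v ∈ e.target) →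
        e.target = Set.univ) ∧
      (∀ (b : Module.Basis (Fin (Module.finrank ℂ E)) ℂ E) (m : Fin (Module.finrank ℂ E) → ℝ),
        (∀ j, 0 < m j) → (0 : E) ∈ e.target →
        (∀ t : ℝ, 0 ≤ t → ∀ z ∈ e.target,
          ∑ j, (Complex.exp (-(t * m j)) * b.repr z j) • b j ∈ e.target) →
        e.target = Set.univ) ∧
      ((0 : E) ∈ e.target → StarConvex ℝ 0 e.target → e.target = Set.univ) := by
  have hExt := H567.hasSExt_of_nonneg hK hnn
  refine ⟨fun ρ hρ => ⟨H567.existsUnique_of_nonneg hK hnn hρ, fun t ht => ?_⟩,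
    fun ρ hρ p hp => ?_, fun ρ hρ p hp => ?_, S445.iff_conv hExt.toS445, ⟨?_, ?_⟩,
    fun hall => ⟨?_, ?_⟩,
    fun e he hs => ⟨fun σ hσ hinv ζ z hz => S445.inv_complex hExt.toS445 he hs hσ hinv ζ hz,
      fun V hV hinv => S445.halfTube hExt.toS445 he hs hV hinv,
      fun b m hm h0 hinv => S445.starlike' hExt.toS445 he hs h0 b hm hinv,
      fun h0 hstar => S445.star hExt.toS445 he hs h0 hstar⟩⟩
  · obtain ⟨ψ, hψ, he⟩ := hExt ρ hρ
    exact H567.bijective_of_ext hψ he ht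
  · obtain ⟨ψ, hψ, he⟩ := hExt ρ hρ
    exact S445.main_conv hψ he hp
  · obtain ⟨ψ, hψ, he⟩ := hExt ρ hρ
    rcases hp with hp | ⟨hp, hp'⟩
    · exact S445.main_contr hψ he hp
    · exact H595.main_radial hK hnn hψ he hp hp'
  · rintro ⟨F⟩
    obtain ⟨ρ, hρ, p, hp⟩ := S445.converse_semi F
    exact ⟨ρ, hρ, p, .of_attr hp, H565.hasGlobalCoordinatesAt_of_diffeo F p⟩
  · rintro ⟨ρ, hρ, p, hp, hf⟩
    obtain ⟨ψ, hψ, he⟩ := hExt ρ hρ
    obtain ⟨F, -⟩ := H595.main_radial hK hnn hψ he hp (Or.inr hf)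
    exact ⟨F⟩
  · rintro ⟨F⟩
    obtain ⟨ρ, hρ, p, hp⟩ := S445.converse_semi F
    exact ⟨ρ, hρ, p, .of_attr hp⟩
  · rintro ⟨ρ, hρ, p, hp⟩
    obtain ⟨ψ, hψ, he⟩ := hExt ρ hρ
    obtain ⟨F, -⟩ := H595.main_radial hK hnn hψ he hp (Or.inl (hall p))
    exact ⟨F⟩

end Vale.Agent.Results.P253.ContractingSemigroup
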