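import Vale.Agent.P253.H595.FinB

open scoped Manifold ContDiff Bundle
open Bundle Vale.Agent.P253.Mfd Vale.Agent.P253.CStar Vale.Agent.P253.R2 Vale.Agent.P253.H595
  Vale.Agent.P253

namespace Vale.Agent.Results.P253.GrowthCriterion

/-- Let `M` be a complete connected noncompact Kähler manifold of nonnegative bisectional
curvature and `Z` a holomorphic vector field on `M` such that, for some point `o` and each `ε > 0`,
there are arbitrarily large `R` and `D > 0` with `|Z| ≤ D * R ^ ε` on the annulus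
`|d (x, o) - R| ≤ D` (`SlowGrowth`), or such that the orbit of every point with `d (x, o) = R`
exists for the complex times `|t| < R ^ (-ε)` (`SlowRadius`), or such that the orbits which start in
some nonempty open set exist for all complex times (`EntireOnOpen`). (1) `Z` is complete: it
generates a unique holomorphic action of `ℂ`. (2) Let `Z` vanish at `p` with linear part
`c diag (m_1, ..., m_n)`, `c ≠ 0` any complex number, `m_j > 0` integers, where `m_i < 2 m_j` for
all `i`, `j` (`IsRadialZero`) or `Z` is equal to this linear field in suitable holomorphic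
coordinates near `p` (`IsLinearZero`). If the bisectional curvature is positive at `p` or some
holomorphic map from `M` to `ℂ^n` is nondegenerate at `p`, then there is a biholomorphism from `M`
to `T_p M = ℂ^n` which maps `Z` to its linear part at `p`. (3) If `M` is biholomorphic to a domain
`Ω` of `ℂ^n` which contains `0` (`e` is a global holomorphic chart, `Ω` its target) and `Z` is in
this chart a linear vector field `A` all of whose complex-time orbits `exp (ζ A) z` in `ℂ^n`
accumulate at `0`, then `Ω = ℂ^n`. (4) `M` is biholomorphic to `ℂ^n` if and only if it has a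
holomorphic vector field with `SlowRadius` or `EntireOnOpen` and a zero as in (2) at which some
holomorphic map to `ℂ^n` is nondegenerate; if the bisectional curvature is positive, if and only if
it has a holomorphic vector field with `SlowRadius` or `EntireOnOpen` and a zero as in (2). -/
theorem result {E : Type*} [NormedAddCommGroup E] [NormedSpace ℂ E] [FiniteDimensional ℂ E]
    {M : Type*} [MetricSpace M] [ChartedSpace E M]
    [IsManifold 𝓘(ℂ, E) 1 M] [IsManifold 𝓘(ℝ, E) ∞ M]
    [RiemannianBundle (fun x : M => TangentSpace 𝓘(ℝ, E) x)]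
    [IsContMDiffRiemannianBundle 𝓘(ℝ, E) ∞ E (fun x : M => TangentSpace 𝓘(ℝ, E) x)]
    [IsRiemannianManifold 𝓘(ℝ, E) M]
    [CompleteSpace M] [NoncompactSpace M] [ConnectedSpace M] (hK : IsKahler E M)
    (hnn : ∀ x : M, NonnegBisectionalAt E x) :
    (∀ Z : (x : M) → TangentSpace 𝓘(ℂ, E) x, IsHolField Z →
      (SlowGrowth E Z ∨ SlowRadius E Z ∨ EntireOnOpen E Z) →
      (∃! ψ : ℂ → M → M, IsHolCFlow E ψ ∧ ∀ (x : M) (ζ : ℂ), IntAt Z (fun w => ψ w x) ζ) ∧
      (∀ p : M, (IsRadialZero E Z p ∨ IsLinearZero E Z p) →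
        (PosBisectionalAt E p ∨ H565.HasGlobalCoordinatesAt E p) →
        ∃ F : M ≃ₘ^1⟮𝓘(ℂ, E), 𝓘(ℂ, E)⟯ E, F p = 0 ∧
          (∀ v : E, (mfderiv 𝓘(ℂ, E) 𝓘(ℂ, E) F p : E → E) v = v) ∧
          ∀ x : M, (mfderiv 𝓘(ℂ, E) 𝓘(ℂ, E) F x : E → E) (Z x) = linPart Z p (F x)) ∧
      ∀ e ∈ IsManifold.maximalAtlas 𝓘(ℂ, E) 1 M, e.source = Set.univ → (0 : E) ∈ e.target →
        ∀ A : E →L[ℂ] E,
          (∀ z : E, (0 : E) ∈ closure (Set.range fun ζ : ℂ => NormedSpace.exp (ζ • A) z)) →
          (∀ x : M, comps Z e x = A (e x)) → e.target = Set.univ) ∧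
    (Nonempty (M ≃ₘ^1⟮𝓘(ℂ, E), 𝓘(ℂ, E)⟯ E) ↔
      ∃ Z : (x : M) → TangentSpace 𝓘(ℂ, E) x, IsHolField Z ∧
        (SlowRadius E Z ∨ EntireOnOpen E Z) ∧
        ∃ p : M, (IsRadialZero E Z p ∨ IsLinearZero E Z p) ∧
          H565.HasGlobalCoordinatesAt E p) ∧
    ((∀ x : M, PosBisectionalAt E x) →
      (Nonempty (M ≃ₘ^1⟮𝓘(ℂ, E), 𝓘(ℂ, E)⟯ E) ↔
        ∃ Z : (x : M) → TangentSpace 𝓘(ℂ, E) x, IsHolField Z ∧
          (SlowRadius E Z ∨ EntireOnOpen E Z) ∧
          ∃ p : M, IsRadialZero E Z p ∨ IsLinearZero E Z p)) :=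
  ⟨fun _ hZ h => ⟨completeB hK hnn hZ h, fun _ hp hpos => unifB hK hnn hZ h hp hpos,
      fun _ he hs h0 _ hA hZA => target_univB hK hnn hZ h he hs hA h0 hZA⟩,
    all_iffB hK hnn, all_iff_posB hK hnn⟩

end Vale.Agent.Results.P253.GrowthCriterion
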